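import Crest.Agent.X212.Taf6.Tak_Mg

/-! Row 212, RF-Q (helper60): `Rf65.QStmt` for `TA = Nr41.TA`, no hypotheses. -/

set_option autoImplicit false

namespace Crest.Agent.X212.Qab60
open Tm38

/-- **RF-Q** -/
theorem rfQ {κ lam : Type} [Fintype κ] [Fintype lam] [DecidableEq lam] (Lm : G75.LM κ lam) :
    Rf65.QStmt Lm (Nr41.TA Lm) :=
  Qt.q_of Lm (Qt.hiK Lm (Taf6.hTak Lm)) (Pq.parStmt Lm fun D => Wl34.wl D) fun J c =>
    ⟨Clc51.clc J c, Ksc68.ksc J c, Sw21.kex J c, Kg34.kgen J c,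
      fun _ _ _ _ _ H => Pat85.outL (Wl34.cclOn H.ok H.pj H.mem) H⟩

end Crest.Agent.X212.Qab60
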