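import Crest.Agent.X212.Trq48.Ob
import Crest.Agent.X212.Tm38.TqA
import Crest.Agent.X212.Tm38.TqB
import Crest.Agent.X212.Mp86.Uq
import Crest.Agent.X212.Tm38.Tq
import Crest.Agent.X212.Tm38.TqC
import Crest.Agent.X212.Tm38.Pq0
import Crest.Agent.X212.Tm38.Pq1
import Crest.Agent.X212.Tm38.Pq2
import Crest.Agent.X212.Tm38.Pq3
import Crest.Agent.X212.Qab60.Hi
import Crest.Agent.X212.Clc51.Loc
import Crest.Agent.X212.Sw21.Fx
import Crest.Agent.X212.Taf6.Main
import Crest.Agent.X212.Crn56.Main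
import Crest.Agent.X212.Qab60.Hj
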