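import Crest.Agent.X212.Qab60.Reg
import Crest.Agent.X212.Qab60.Abs
import Crest.Agent.X212.Dr59.Lat
import Crest.Agent.X212.Wrd81.Ap
import Crest.Agent.X212.Mp86.Wd
import Crest.Agent.X212.Abel74.Red

-- ▼ part X212/Qab60/Lin
section

/-! X212 / QAB (helper60): the linear equation `f⁺ = T f` in a class, on a negative piece. -/

set_option autoImplicit false
set_option linter.unusedSectionVars false
noncomputable section
open scoped Manifold ContDiff Topology InnerProductSpace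
open MeasureTheory Finset Function Filter
open Crest.Agent.R208.F (Ext io)
open Crest.Agent.R208.FI (IsDeg)

namespace Crest.Agent.X212.Qab60
open An Sob92 Map77 Num57 Int54
open Dr59 (SmAt dM df CAt Cl Ex Cs)

variable {E : Type} [NormedAddCommGroup E] [NormedSpace ℝ E] [FiniteDimensional ℝ E]
  [MeasurableSpace E] [BorelSpace E]
  {HM : Type} [TopologicalSpace HM] {I : ModelWithCorners ℝ E HM} [I.Boundaryless]
  {M : Type} [TopologicalSpace M] [ChartedSpace HM M] [IsManifold I ∞ M] [T2Space M]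
  [MeasurableSpace M] [BorelSpace M] [SecondCountableTopology M] {ι : Type} [Fintype ι]
  {F : Fr I M ι} {o : ι → ι → ι → ι → M → ℝ} {u v u0 k : HK F 0} {w w' a b η O f0 : M → Ext E}
  {Ω : Set M}

variable (I) in
/-- closed two-forms on the piece -/
structure Cz (Ω : Set M) (w : M → Ext E) : Prop where
  fo : Fo I 2 w
  cl : dM I w = 0
  off : Off Ω w

theorem Cz.add (h : Cz I Ω w) (h' : Cz I Ω w') : Cz I Ω (w + w') :=
  ⟨h.fo.add h'.fo, by rw [h.fo.d_add h'.fo, h.cl, h'.cl, add_zero], h.off.add h'.off⟩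
theorem Cz.sub (h : Cz I Ω w) (h' : Cz I Ω w') : Cz I Ω (w - w') :=
  ⟨h.fo.sub h'.fo, by rw [h.fo.d_sub h'.fo, h.cl, h'.cl, sub_zero], h.off.sub h'.off⟩
theorem Cz.smul (h : Cz I Ω w) (r : ℝ) : Cz I Ω (r • w) :=
  ⟨h.fo.smul r, by rw [h.fo.d_smul, h.cl, smul_zero], h.off.smul r⟩
theorem cz_d (hΩ : IsClopen Ω) (ha : Fo I 1 a) (h0 : Off Ω a) : Cz I Ω (dM I a) :=
  ⟨ha.d, ha.dd, h0.d hΩ⟩
theorem cz_of_cs (h : Cs I 2 Ω w) : Cz I Ω w :=
  ⟨.of_cl h.cl, funext fun x => h.cl.cl x trivial, fun _ => h.eq_zero⟩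
theorem Cz.cs (h : Cz I Ω w) (hΩ : IsClopen Ω) (hc : HasCompactSupport w) : Cs I 2 Ω w :=
  ⟨h.fo.cl h.cl, hc, closure_minimal (fun x hx => by_contra fun e => hx (h.off x e)) hΩ.1⟩
theorem cz_sum {κ : Type} [Fintype κ] {e : κ → M → Ext E} (h : ∀ i, Cz I Ω (e i)) (c : κ → ℝ) :
    Cz I Ω (∑ i, c i • e i) :=
  Finset.sum_induction _ (Cz I Ω) (fun _ _ => Cz.add)
    ⟨Fo.zero, Dr59.dM_zero, fun _ _ => rfl⟩ fun i _ => (h i).smul _

theorem fo_ind (hΩ : IsClopen Ω) {j : ℕ} (hs : Dr59.Sm I Ω a) (hd : Dr59.Dg j Ω a) :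
    Fo I j (Ω.indicator a) := ⟨fun x => by
  by_cases hx : x ∈ Ω
  · exact (hs x hx).congr (eventually_of_mem (hΩ.2.mem_nhds hx) fun y hy => Set.indicator_of_mem hy _)
  · exact Dr59.cAt_zero.congr (eventually_of_mem (hΩ.1.isOpen_compl.mem_nhds hx) fun y hy =>
      Set.indicator_of_notMem hy _), fun x => by
  by_cases hx : x ∈ Ω
  · rw [Set.indicator_of_mem hx]; exact hd x hx
  · rw [Set.indicator_of_notMem hx]; exact .zero⟩

theorem Cz.ex (h : Cz I Ω w) (hΩ : IsClopen Ω) (he : Ex I Ω w) :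
    ∃ a, Fo I 1 a ∧ Off Ω a ∧ w = dM I a := by
  obtain ⟨b, h1, h2, h3⟩ := he.deg fun x _ => h.fo.dg x
  have h0 : Off Ω (Ω.indicator b) := fun x hx => Set.indicator_of_notMem hx _
  refine ⟨_, fo_ind hΩ h1 h2, h0, funext fun x => ?_⟩
  by_cases hx : x ∈ Ω
  · rw [← h3 x hx]
    exact Dr59.dM_congr (eventually_of_mem (hΩ.2.mem_nhds hx) fun y hy =>
      (Set.indicator_of_mem hy _).symm)
  · rw [h.off x hx, h0.d hΩ x hx]

theorem integ_d (hO : Ori I O) (ha : Fo I 1 a) (hw : Fo I 2 w) (hd : dM I w = 0)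
    (hc : HasCompactSupport (a * w)) : integ I O (dM I a * w) = 0 := by
  have := stokes_sm hO (ha.mul hw).sm hc
  rwa [ha.d_mul hw, hd, mul_zero, smul_zero, add_zero] at this

theorem Fo.intOn {j : ℕ} (h : Fo I j a) (hO : Ori I O) (hc : HasCompactSupport a) :
    IntOn I O a Set.univ := hO.intOn_of_hcs (fun x => (h.sm x).of_le (by simp)) hc _

variable (I) in
/-- **the topological input**: `b⁺ = 0`, and the exact sequence of the end -/
structure Neg (O : M → Ext E) (Ω : Set M) : Prop where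
  lift : ∀ w, Cz I Ω w → (∀ b, Fo I 1 b → Off Ω b → HasCompactSupport (dM I b) →
    integ I O (dM I b * w) = 0) →
    ∃ η a, Cz I Ω η ∧ HasCompactSupport η ∧ Fo I 1 a ∧ Off Ω a ∧ w = η + dM I a
  neg : ∀ η, Cz I Ω η → HasCompactSupport η → integ I O (η * η) ≤ 0
  rad : ∀ η, Cz I Ω η → HasCompactSupport η → integ I O (η * η) = 0 →
    ∃ a, Fo I 1 a ∧ Off Ω a ∧ η = dM I a

/-- negative classes `e i` with compact support and classes `η j` detected on the end -/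
theorem Neg.of_span (hO : Ori I O) (hΩ : IsClopen Ω) {κ κ' : Type} [Fintype κ] [Fintype κ']
    {e : κ → M → Ext E} {η ψ : κ' → M → Ext E} (he : ∀ i, Cs I 2 Ω (e i)) (hη : ∀ j, Cz I Ω (η j))
    (hψ : ∀ j, Fo I 1 (ψ j) ∧ Off Ω (ψ j) ∧ HasCompactSupport (dM I (ψ j)))
    (h1 : ∀ j, integ I O (dM I (ψ j) * η j) ≠ 0)
    (h0 : ∀ j j', j' ≠ j → integ I O (dM I (ψ j) * η j') = 0)
    (hG : ∀ c : κ → ℝ, c ≠ 0 → integ I O ((∑ i, c i • e i) * ∑ i, c i • e i) < 0)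
    (hs : ∀ w, Cz I Ω w → ∃ (c : κ → ℝ) (r : κ' → ℝ),
      Ex I Ω (w - ∑ i, c i • e i - ∑ j, r j • η j)) : Neg I O Ω := by
  classical
  have hc : ∀ c : κ → ℝ, Cs I 2 Ω (∑ i, c i • e i) := fun c =>
    Dr59.cs_sum fun i _ => (he i).smul _
  have key : ∀ w, Cz I Ω w → (∀ b, Fo I 1 b → Off Ω b → HasCompactSupport (dM I b) →
      integ I O (dM I b * w) = 0) →
      ∃ (c : κ → ℝ) (a : M → Ext E), Fo I 1 a ∧ Off Ω a ∧ w = ∑ i, c i • e i + dM I a := by
    intro w hw h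
    obtain ⟨c, r, hx⟩ := hs w hw
    have z := cz_of_cs (hc c)
    obtain ⟨a, ha, a0, e1⟩ := ((hw.sub z).sub (cz_sum hη r)).ex hΩ hx
    have e2 : w = ∑ i, c i • e i + dM I a + ∑ j, r j • η j := by rw [← e1]; abel
    have hr : r = 0 := funext fun j => by
      obtain ⟨p1, p2, p3⟩ := hψ j
      have h2 := h _ p1 p2 p3
      have i : ∀ {w}, Fo I 2 w → IntOn I O (dM I (ψ j) * w) Set.univ := fun hw =>
        (p1.d.mul hw).intOn hO p3.mul_right
      rw [e2, mul_add, mul_add, integ_add ((i z.fo).add (i ha.d)) (i (cz_sum hη r).fo),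
        integ_add (i z.fo) (i ha.d), integ_d hO p1 z.fo z.cl (hc c).hc.mul_left, p1.d.comm2,
        integ_d hO ha p1.d p1.dd p3.mul_left, mul_sum,
        integ_sum fun j' _ => i ((hη j').fo.smul _)] at h2
      simp only [mul_smul_comm, integ_smul, zero_add] at h2
      rw [sum_eq_single j (fun j' _ hj => by rw [h0 j j' hj, mul_zero]) (by simp)] at h2
      exact (mul_eq_zero.1 h2).resolve_right (h1 j)
    exact ⟨c, a, ha, a0, by simpa [hr] using e2⟩
  have sq : ∀ η, Cz I Ω η → HasCompactSupport η → ∃ (c : κ → ℝ) (a : M → Ext E), Fo I 1 a ∧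
      Off Ω a ∧ η = ∑ i, c i • e i + dM I a ∧
      integ I O (η * η) = integ I O ((∑ i, c i • e i) * ∑ i, c i • e i) := fun η hη hη' => by
    obtain ⟨c, a, ha, a0, e1⟩ := key η hη fun b hb _ _ => integ_d hO hb hη.fo hη.cl hη'.mul_left
    have z := cz_of_cs (hc c)
    have e2 : ∀ {w}, Cz I Ω w → HasCompactSupport w →
        integ I O (η * w) = integ I O ((∑ i, c i • e i) * w) := fun hw hw' => by
      conv_lhs => rw [e1]
      rw [add_mul, integ_add ((z.fo.mul hw.fo).intOn hO hw'.mul_left)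
        ((ha.d.mul hw.fo).intOn hO hw'.mul_left), integ_d hO ha hw.fo hw.cl hw'.mul_left, add_zero]
    exact ⟨c, a, ha, a0, e1, by rw [e2 hη hη', z.fo.comm2, e2 z (hc c).hc]⟩
  refine ⟨fun w hw h => ?_, fun η h h' => ?_, fun η h h' h2 => ?_⟩
  · obtain ⟨c, a, ha, a0, e1⟩ := key w hw h
    exact ⟨_, a, cz_of_cs (hc c), (hc c).hc, ha, a0, e1⟩
  · obtain ⟨c, a, -, -, -, e2⟩ := sq η h h'
    rw [e2]
    by_cases hc0 : c = 0
    · simp [hc0]
    · exact (hG c hc0).le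
  · obtain ⟨c, a, ha, a0, e1, e2⟩ := sq η h h'
    have : c = 0 := by_contra fun hc0 => (hG c hc0).ne (e2.symm.trans h2)
    exact ⟨a, ha, a0, by simpa [this] using e1⟩

variable (F o Ω) in
/-- a negative piece with conformally long ends -/
structure Pc : Prop extends Tam F o where
  cl : IsClopen Ω
  bd : BD F o Ω
  top : Neg I (vol F o) Ω

variable (F o Ω) in
/-- self-dual forms on the piece -/
def HP : Submodule ℝ (HK F 0) where
  carrier := {y | PH F o 0 y = y ∧ πH F Ω y = y}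
  add_mem' h k := ⟨by rw [map_add, h.1, k.1], by rw [map_add, h.2, k.2]⟩
  zero_mem' := ⟨map_zero _, map_zero _⟩
  smul_mem' r _ h := ⟨by rw [map_smul, h.1], by rw [map_smul, h.2]⟩

instance : CompleteSpace (HP F o Ω) :=
  ((isClosed_eq (PH F o 0).continuous continuous_id).inter
    (isClosed_eq (πH F Ω).continuous continuous_id)).completeSpace_coe

variable (F o Ω) in
/-- small smoothing perturbations with self-dual values -/
structure Per (T : HK F 0 →L[ℝ] HK F 0) (ε : ℝ) : Prop where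
  mem : ∀ u, πH F Ω u = u → T u ∈ HP F o Ω
  le : ∀ u, πH F Ω u = u → ‖T u‖ ≤ ε * ‖u‖
  lv : ∀ j u, Lv F j u → Lv F (j + 1) (T u)
  e0 : 0 ≤ ε
  e1 : √2 * ε < 1

namespace Pc
variable (h : Pc F o Ω) {T : HK F 0 →L[ℝ] HK F 0} {ε : ℝ}
include h

theorem lift (hu : Isf F u w) (hw : Cz I Ω w) (h0 : ∀ k ∈ KK F Ω, Bw F o k u = 0) :
    ∃ η v, Cz I Ω η ∧ HasCompactSupport η ∧ Isf F v η ∧ u - v ∈ K0 F Ω := by
  obtain ⟨η, a, h1, h2, ha, a0, e⟩ := h.top.lift w hw fun b hb b0 hc => by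
    obtain ⟨k, hk⟩ := (sq_of_hcs (F := F) hb.d.sm hc).exists
    have := h0 k (mem_KK hb b0 hk)
    rw [h.Bw_eq hk hu hb.d.dg] at this
    linarith
  obtain ⟨v, hv⟩ := (sq_of_hcs (F := F) h1.fo.sm h2).exists
  exact ⟨η, v, h1, h2, hv, a, ha, a0, by simpa [e] using hu.sub hv⟩

/-- no self-dual form is orthogonal to the exact forms -/
theorem orth (hu : u ∈ HP F o Ω) (h0 : ∀ k ∈ KK F Ω, ⟪k, u⟫_ℝ = 0) : u = 0 := by
  have h1 : ∀ k ∈ KK F Ω, Bw F o k u = 0 := fun k hk => (h.Bw_PH k hu.1).trans (h0 k hk)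
  have wc : WC F o u := fun x => by rw [← hu.2, ← h.Bw_π h.cl, h1 _ (h.dH_mem h.cl x)]
  have nn : ng (ng o) = o := by funext; exact neg_neg _
  have hl : ∀ j, Lv F j u := fun j => by
    have := h.neg.reg (j := j) (u := u) (fun x => ?_) (by
      rw [← hu.1, h.MH_PH]; exact ⟨0, map_zero _⟩)
    · rwa [nn, hu.1] at this
    · have := wc x
      simp only [Bw, nn] at this ⊢
      linarith
  obtain ⟨w, hw, hd, hi, -⟩ := h.smooth (h.frm_of_PH hu.1) wc hl
  obtain ⟨η, v, h2, h3, hv, hk⟩ := h.lift hi ⟨hw, hd, hi.off h.cl hw hu.2⟩ h1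
  have hk' := (K0 F Ω).le_topologicalClosure hk
  have e1 := h1 _ hk'
  have e2 := h.Bw_cpt hk' hv h2.fo h2.cl h3
  have e3 := h.Bw_eq hv hv h2.fo.dg
  have e4 := h.top.neg η h2 h3
  have e5 := h.Bw_symm u v
  have e6 := h.Bw_PH u hu.1
  simp only [Bw, inner_sub_left] at e1 e2 e3 e5 e6
  exact real_inner_self_nonpos.1 (by linarith)

/-- smooth elements of the closure are exact -/
theorem exact (hk : k ∈ KK F Ω) (hi : Isf F k w) (hw : Fo I 2 w) :
    ∃ a, Fo I 1 a ∧ Off Ω a ∧ w = dM I a := by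
  obtain ⟨η, v, h2, h3, hv, hk'⟩ := h.lift hi
    ⟨hw, h.closed (h.wc_KK h.cl h.bd hk) hi hw, hi.off h.cl hw (π_KK h.cl hk)⟩
    fun k' hk' => h.iso h.bd hk' hk
  have e1 := h.Bw_cpt hk hv h2.fo h2.cl h3
  have e2 := h.Bw_cpt ((K0 F Ω).le_topologicalClosure hk') hv h2.fo h2.cl h3
  have e3 := h.Bw_eq hv hv h2.fo.dg
  obtain ⟨b, hb, b0, e⟩ := h.top.rad η h2 h3 (by
    simp only [Bw, inner_sub_left] at e1 e2 e3; linarith)
  obtain ⟨a, ha, a0, hi'⟩ := hk'
  refine ⟨a + b, ha.add hb, a0.add b0, hi.eq ?_ hw (ha.add hb).d⟩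
  simpa [ha.d_add hb, ← e] using Isf.add hi' hv

theorem PH_mem (hu : πH F Ω u = u) : PH F o 0 u ∈ HP F o Ω :=
  ⟨h.PH_PH u, by rw [h.π_PH h.cl, hu]⟩

theorem low (hT : Per F o Ω T ε) (hk : k ∈ KK F Ω) :
    (1 - √2 * ε) * ‖k‖ ≤ √2 * ‖PH F o 0 k - T k‖ := by
  have h1 := h.norm_KK h.bd hk
  have h2 := hT.le k (π_KK h.cl hk)
  have h3 := norm_sub_norm_le (PH F o 0 k) (T k)
  have h4 : 0 < √2 := by positivity
  nlinarith

/-- **the linear equation is solvable** -/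
theorem surj (hT : Per F o Ω T ε) (hv : v ∈ HP F o Ω) : ∃ k ∈ KK F Ω, PH F o 0 k - T k = v := by
  let A : KK F Ω →L[ℝ] HP F o Ω := ((PH F o 0).comp (KK F Ω).subtypeL).codRestrict _
    fun k => h.PH_mem (π_KK h.cl k.2)
  let D : KK F Ω →L[ℝ] HP F o Ω := (T.comp (KK F Ω).subtypeL).codRestrict _
    fun k => hT.mem _ (π_KK h.cl k.2)
  obtain ⟨e, he⟩ := inv_of_low (A := A) (D := D) (c := √2) (by positivity) hT.e1
    (fun k => (h.norm_KK h.bd k.2).le) (fun k => (hT.le k (π_KK h.cl k.2)).trans (by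
      rw [h.norm_KK h.bd k.2, mul_left_comm, ← mul_assoc]; rfl))
    fun y hy => Subtype.ext (h.orth y.2 fun k hk => by
      have := hy ⟨k, hk⟩
      rwa [← y.2.1, ← h.PH_symm])
  obtain ⟨k, hk⟩ := e.surjective ⟨v, hv⟩
  exact ⟨k, k.2, congrArg Subtype.val ((DFunLike.congr_fun he k).symm.trans hk)⟩

theorem exists_sol (hT : Per F o Ω T ε) (h0 : πH F Ω u0 = u0) :
    ∃ k ∈ KK F Ω, PH F o 0 (u0 + k) = T (u0 + k) := by
  obtain ⟨k, hk, e⟩ := h.surj hT (sub_mem (hT.mem u0 h0) (h.PH_mem h0))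
  exact ⟨k, hk, by rw [map_add, map_add, eq_add_of_sub_eq e]; abel⟩

theorem uniq (hT : Per F o Ω T ε) {k' : HK F 0} (hk : k ∈ KK F Ω) (hk' : k' ∈ KK F Ω)
    (e : PH F o 0 (u0 + k) = T (u0 + k)) (e' : PH F o 0 (u0 + k') = T (u0 + k')) : k = k' := by
  have h1 := h.low hT (sub_mem hk hk')
  rw [show k - k' = (u0 + k) - (u0 + k') by abel, map_sub, map_sub, e, e', sub_self, norm_zero,
    mul_zero] at h1
  have h2 := norm_eq_zero.1 (le_antisymm
    (nonpos_of_mul_nonpos_right h1 (sub_pos.2 hT.e1)) (norm_nonneg _))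
  exact add_left_cancel (sub_eq_zero.1 h2)

/-- **solutions are smooth and lie in the class of `f0`** -/
theorem sm_sol (hT : Per F o Ω T ε) (h0 : Isf F u0 f0) (hf : Cz I Ω f0) (hk : k ∈ KK F Ω)
    {g : HK F 0} (hg : ∀ j, Lv F j g) (e : PH F o 0 (u0 + k) = T (u0 + k) + g) :
    ∃ a, Fo I 1 a ∧ Off Ω a ∧ Isf F k (dM I a) ∧ F.Cb (c2 F (f0 + dM I a)) ∧
      ∀ j, FL F.toPre j (c2 F (f0 + dM I a)) := by
  have fr := (h.frm h0).add (h.frm_KK hk)
  have wc := (h.wc_of_closed h0 hf.fo hf.cl).add (h.wc_KK h.cl h.bd hk)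
  have hl : ∀ j, Lv F j (u0 + k) := fun j => by
    induction j with
    | zero => exact Lv.zero _
    | succ j ih => exact h.reg' fr wc (e ▸ (hT.lv j _ ih).add (hg _))
  obtain ⟨w, hw, -, hi, h1, h2⟩ := h.smooth fr wc hl
  have h3 : Isf F k (w - f0) := by simpa using hi.sub h0
  obtain ⟨a, ha, a0, e'⟩ := h.exact hk h3 (hw.sub hf.fo)
  exact ⟨a, ha, a0, e' ▸ h3, by rwa [← e', add_sub_cancel], by rwa [← e', add_sub_cancel]⟩

theorem Bw_class (h0 : Isf F u0 f0) (hf : Cz I Ω f0) (hc : HasCompactSupport f0) (hk : k ∈ KK F Ω) :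
    Bw F o (u0 + k) (u0 + k) = 2 * integ I (vol F o) (f0 * f0) := by
  have e1 := h.Bw_cpt hk h0 hf.fo hf.cl hc
  have e2 := h.iso h.bd hk hk
  have e3 := h.Bw_symm u0 k
  rw [← h.Bw_eq h0 h0 hf.fo.dg]
  simp only [Bw, map_add, inner_add_left, inner_add_right] at e1 e2 e3 ⊢
  linarith

/-- the energy bound -/
theorem energy (hT : Per F o Ω T ε) (h0 : Isf F u0 f0) (hf : Cz I Ω f0) (hc : HasCompactSupport f0)
    (hk : k ∈ KK F Ω) (e : PH F o 0 (u0 + k) = T (u0 + k)) :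
    (1 - 2 * ε ^ 2) * ‖u0 + k‖ ^ 2 ≤ -2 * integ I (vol F o) (f0 * f0) := by
  have e1 := h.Bw_class h0 hf hc hk
  have e2 := h.norm_frm ((h.frm h0).add (h.frm_KK hk))
  have e3 := hT.le (u0 + k) (by rw [map_add, h0.π_eq h.cl hf.off, π_KK h.cl hk])
  rw [h.Bw_self, e] at e1
  rw [e] at e2
  have := pow_le_pow_left₀ (norm_nonneg _) e3 2
  nlinarith

end Pc

end Crest.Agent.X212.Qab60
end
end

-- ▼ part X212/Qab60/Wrd

/-! X212 / QAB (helper60): scalar words as operators on `L²`; commutators with cut-offs. -/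

set_option autoImplicit false
set_option linter.unusedSectionVars false
noncomputable section
open scoped Manifold ContDiff Topology InnerProductSpace
open MeasureTheory Finset Function Filter

namespace Crest.Agent.X212.Qab60
open An Sob92 Map77 Num57
open Wrd81 (RH GH QH lap1 wd)
open Kah60 (gr2)
open Abel74 (G0 la0)
open Mp86 (G1 LLSz LaSz)

variable {E : Type} [NormedAddCommGroup E] [NormedSpace ℝ E] [FiniteDimensional ℝ E]
  [MeasurableSpace E] [BorelSpace E]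
  {HM : Type} [TopologicalSpace HM] {I : ModelWithCorners ℝ E HM} [I.Boundaryless]
  {M : Type} [TopologicalSpace M] [ChartedSpace HM M] [IsManifold I ∞ M] [T2Space M]
  [MeasurableSpace M] [BorelSpace M] [SecondCountableTopology M] {ι : Type} [Fintype ι]
  {U V W : Type} [NormedAddCommGroup U] [InnerProductSpace ℝ U] [FiniteDimensional ℝ U]
  [NormedAddCommGroup V] [InnerProductSpace ℝ V] [FiniteDimensional ℝ V]
  [NormedAddCommGroup W] [InnerProductSpace ℝ W] [FiniteDimensional ℝ W]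
  (F : Fr I M ι)

/-- square integrable functions -/
abbrev L2 (V : Type) [NormedAddCommGroup V] [InnerProductSpace ℝ V] : Type := F.H 0 (triv M V)

/-- the element has `j` derivatives -/
def Lg (j : ℕ) (u : L2 F V) : Prop := ∃ v : F.H j (triv M V), F.incl j 0 _ v = u

/-- the gradient of `χ` is small against `H¹` -/
def Thin (χ : M → ℝ) (η : ℝ) : Prop := ∀ v : M → ℝ, Sm I v → HasCompactSupport v →
  ∫ x, gr2 F.toPre χ x * v x ^ 2 ∂F.μ ≤ η ^ 2 * F.ip 1 v v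

/-- `A` has norm `≤ N`, contains `n` resolvents, gains `d` derivatives and extends `Af` -/
structure Wo (A : L2 F V →L[ℝ] L2 F W) (Af : (M → V) → M → W) (N : ℝ) (n d : ℕ) : Prop where
  n0 : 0 ≤ N
  le : ∀ u, ‖A u‖ ≤ N * ‖u‖
  cm : ∀ χ η, F.Cb χ → 0 ≤ η → Thin F χ η → ∀ u,
    ‖smulH F.toPre 0 _ χ (A u) - A (smulH F.toPre 0 _ χ u)‖ ≤ 2 * n * η * N * ‖u‖
  lv : ∀ j u, Lg F j u → Lg F (j + d) (A u)
  rp : ∀ x u, (∀ j, Lg F j x) → Sm I u → Is F.toPre 0 _ x u →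
    Sm I (Af u) ∧ Is F.toPre 0 _ (A x) (Af u)

/-- the scalar resolvent -/
def GS : L2 F ℝ →L[ℝ] L2 F ℝ := F.incl 2 0 _ ∘L GH F (fun _ _ => 0) 0

variable {F} {N N' : ℝ} {n n' d d' j : ℕ}

theorem Lg.mono {u : L2 F V} (h : Lg F j u) (hd : d ≤ j) : Lg F d u :=
  let ⟨v, hv⟩ := h; ⟨F.incl j d _ v, by rw [incl_incl hd d.zero_le, hv]⟩

section wo
variable {A A' : L2 F V →L[ℝ] L2 F W} {Af Af' : (M → V) → M → W}

theorem sm_csmul (r : ℝ) {u : M → W} (h : Sm I u) : Sm I (r • u) :=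
  (r • ContinuousLinearMap.id ℝ W).contMDiff.comp h

theorem Wo.mono (h : Wo F A Af N n d) (hN : N ≤ N') (hn : n ≤ n') (hd : d' ≤ d) :
    Wo F A Af N' n' d' where
  n0 := h.n0.trans hN
  le u := (h.le u).trans (by gcongr)
  cm χ η h1 h2 h3 u := (h.cm χ η h1 h2 h3 u).trans (by have := h.n0; gcongr)
  lv j u hu := (h.lv j u hu).mono (by omega)
  rp := h.rp

theorem Wo.congr (h : Wo F A Af N n d) (e : ∀ u, Sm I u → Af' u = Af u) : Wo F A Af' N n d :=
  ⟨h.n0, h.le, h.cm, h.lv, fun x u h1 h2 h3 => e u h2 ▸ h.rp x u h1 h2 h3⟩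

theorem Wo.comp {B : L2 F U →L[ℝ] L2 F V} {Bf : (M → U) → M → V} (h : Wo F A Af N n d)
    (k : Wo F B Bf N' n' d') : Wo F (A ∘L B) (fun u => Af (Bf u)) (N * N') (n + n') (d + d') where
  n0 := mul_nonneg h.n0 k.n0
  le u := (h.le _).trans (by rw [mul_assoc]; exact mul_le_mul_of_nonneg_left (k.le u) h.n0)
  cm χ η h1 h2 h3 u := by
    have e1 := h.cm χ η h1 h2 h3 (B u)
    have e2 := (h.le _).trans (mul_le_mul_of_nonneg_left (k.cm χ η h1 h2 h3 u) h.n0)
    have e3 := mul_le_mul_of_nonneg_left (k.le u)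
      (show 0 ≤ 2 * n * η * N by have := h.n0; positivity)
    rw [map_sub] at e2
    refine (norm_sub_le_norm_sub_add_norm_sub _ (A (smulH F.toPre 0 _ χ (B u))) _).trans ?_
    simp only [ContinuousLinearMap.comp_apply, Nat.cast_add]
    linarith
  lv j u hu := by
    have := h.lv _ _ (k.lv j u hu)
    rwa [add_assoc, add_comm d'] at this
  rp x u h1 h2 h3 := h.rp _ _ (fun j => (k.lv j x (h1 j)).mono (by omega))
    (k.rp x u h1 h2 h3).1 (k.rp x u h1 h2 h3).2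

theorem Wo.add (h : Wo F A Af N n d) (k : Wo F A' Af' N' n d) :
    Wo F (A + A') (fun u => Af u + Af' u) (N + N') n d where
  n0 := add_nonneg h.n0 k.n0
  le u := by rw [add_apply]; exact (norm_add_le _ _).trans (by linarith [h.le u, k.le u])
  cm χ η h1 h2 h3 u := by
    rw [add_apply, add_apply, map_add, add_sub_add_comm]
    exact (norm_add_le _ _).trans (by linarith [h.cm χ η h1 h2 h3 u, k.cm χ η h1 h2 h3 u])
  lv j u hu := let ⟨x, hx⟩ := h.lv j u hu; let ⟨y, hy⟩ := k.lv j u hu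
    ⟨x + y, by rw [map_add, hx, hy]; rfl⟩
  rp x u h1 h2 h3 :=
    have := FiniteDimensional.complete ℝ W
    ⟨(h.rp x u h1 h2 h3).1.add (k.rp x u h1 h2 h3).1,
      (h.rp x u h1 h2 h3).2.add (k.rp x u h1 h2 h3).2⟩

theorem Wo.smul (h : Wo F A Af N n d) (r : ℝ) :
    Wo F (r • A) (fun u => r • Af u) (|r| * N) n d where
  n0 := mul_nonneg (abs_nonneg r) h.n0
  le u := by
    rw [smul_apply, norm_smul, mul_assoc]
    exact mul_le_mul_of_nonneg_left (h.le u) (abs_nonneg r)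
  cm χ η h1 h2 h3 u := by
    rw [smul_apply, smul_apply, map_smul, ← smul_sub, norm_smul]
    exact (mul_le_mul_of_nonneg_left (h.cm χ η h1 h2 h3 u) (abs_nonneg r)).trans_eq (by ring)
  lv j u hu := let ⟨x, hx⟩ := h.lv j u hu; ⟨r • x, by rw [map_smul, hx]; rfl⟩
  rp x u h1 h2 h3 :=
    have := FiniteDimensional.complete ℝ W
    ⟨sm_csmul r (h.rp x u h1 h2 h3).1, (h.rp x u h1 h2 h3).2.smul r⟩

theorem wo_zero : Wo F (0 : L2 F V →L[ℝ] L2 F W) (fun _ => 0) 0 n d where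
  n0 := le_rfl
  le u := by simp
  cm χ η _ _ _ u := by simp
  lv j u _ := ⟨0, map_zero _⟩
  rp x u _ _ _ := have := FiniteDimensional.complete ℝ W; ⟨contMDiff_const, Is.zero⟩

theorem wo_sum {κ : Type} (s : Finset κ) {A : κ → L2 F V →L[ℝ] L2 F W}
    {Af : κ → (M → V) → M → W} {N : κ → ℝ} (h : ∀ i ∈ s, Wo F (A i) (Af i) (N i) n d) :
    Wo F (∑ i ∈ s, A i) (fun u => ∑ i ∈ s, Af i u) (∑ i ∈ s, N i) n d := by
  classical
  induction s using Finset.induction_on with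
  | empty => simpa using wo_zero
  | insert a s ha ih =>
    simp only [sum_insert ha]
    exact (h a (by simp)).add (ih fun i hi => h i (by simp [hi]))

theorem wo_mul {f : M → V →L[ℝ] W} (hf : F.Cb f) (hN : 0 ≤ N) (h : ∀ x v, ‖f x v‖ ≤ N * ‖v‖) :
    Wo F (F.mulH 0 _ _ f) (fun u x => f x (u x)) N 0 0 := by
  have := FiniteDimensional.complete ℝ V
  have := FiniteDimensional.complete ℝ W
  refine ⟨hN, fun u => ?_, fun χ η h1 _ _ u => ?_, fun j u ⟨v, hv⟩ => ⟨F.mulH j _ _ f v,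
    (incl_mulH hf (Maps.triv _) j.zero_le v).trans (congrArg _ hv)⟩,
    fun x u _ h2 h3 => ⟨hf.choose_spec.1.clm_apply h2, h3.mulH hf (Maps.triv _)⟩⟩
  · have k := (is_self u).mulH (q := triv M W) hf (Maps.triv _)
    refine abs_le_of_sq_le_sq' ?_ (by positivity) |>.2
    rw [is_norm k, mul_pow, is_norm (is_self u), ← integral_const_mul]
    refine integral_mono_of_nonneg (.of_forall fun _ => sq_nonneg _)
      ((is_self u).memLp.norm.integrable_sq.const_mul _) (.of_forall fun x => ?_)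
    simp only [← mul_pow]
    exact pow_le_pow_left₀ (norm_nonneg _) (h x _) 2
  · rw [(((is_self u).mulH hf (Maps.triv _)).smulH h1).unique ((((is_self u).smulH h1).mulH hf
      (Maps.triv _)).congr (.of_forall fun x => map_smul _ _ _)), sub_self, norm_zero]
    simp

theorem wo_smul {f : M → ℝ} (hf : F.Cb f) (hN : 0 ≤ N) (h : ∀ x, |f x| ≤ N) :
    Wo F (smulH F.toPre 0 (triv M ℝ) f) (fun u x => f x * u x) N 0 0 :=
  wo_mul (f := fun x => f x • ContinuousLinearMap.id ℝ ℝ) (Cb_smul hf (Cb_const _)) hN fun x v => by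
    rw [smul_apply, norm_smul]
    exact mul_le_mul_of_nonneg_right (h x) (norm_nonneg _)

end wo

/-! ### the resolvent -/

theorem thin_ind {Ω : Set M} (hΩ : IsClopen Ω) : Thin F (Ω.indicator 1) 0 := fun v _ _ => by
  have : ∀ x, gr2 F.toPre (Ω.indicator (1 : M → ℝ)) x = 0 := fun x => sum_eq_zero fun a _ => by
    rw [Pre.D_def, dv_congr (ind_ev hΩ x), dv_const]; simp
  simp [this]

theorem Thin.H {χ : M → ℝ} {η : ℝ} (h : Thin F χ η) (hχ : F.Cb χ) (x : F.H 1 (triv M ℝ)) :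
    ∑ a, ‖smulH F.toPre 0 _ (F.D a χ) (F.incl 1 0 _ x)‖ ^ 2 ≤ η ^ 2 * ‖x‖ ^ 2 := by
  induction x using H_ind with
  | hP => exact isClosed_le (by fun_prop) (by fun_prop)
  | h v =>
    have k := fun a => ((Is.toH (F := F.toPre) (k := 1) v).incl zero_le_one).smulH (Cb_D hχ a)
    simp only [fun a => is_norm (k a)]
    rw [← integral_finsetSum _ fun a _ => (k a).memLp.norm.integrable_sq,
      ← real_inner_self_eq_norm_sq, Pre.inner_toH]
    refine le_of_eq_of_le (integral_congr_ae (.of_forall fun x => ?_)) (h v.1 v.2.1 v.2.2.1)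
    simp only [gr2, sum_mul, norm_smul, Real.norm_eq_abs, mul_pow, sq_abs, sq (F.D _ _ _)]

theorem DH_smul {χ : M → ℝ} (hχ : F.Cb χ) (a : ι) (x : F.H 1 (triv M ℝ)) :
    DH F.toPre 0 _ a (smulH F.toPre 1 _ χ x) = smulH F.toPre 0 _ (F.D a χ) (F.incl 1 0 _ x) +
      smulH F.toPre 0 _ χ (DH F.toPre 0 _ a x) :=
  DFunLike.congr_fun (RepT_eq (RepT_comp (rep_DH a) (rep_smulH hχ))
    (RepT_add (RepT_comp (rep_smulH (Cb_D hχ a)) (rep_incl zero_le_one))
      (RepT_comp (rep_smulH hχ) (rep_DH a))) fun u => funext fun y => by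
    simp only [smul_eq_mul, id, Pi.add_apply, Pre.D_def]
    rw [Wz78.dv_mul (hχ.choose_spec.1 y) (u.2.1 y)]) x

theorem smul_symm {χ : M → ℝ} (hχ : F.Cb χ) (x y : L2 F V) :
    ⟪smulH F.toPre 0 _ χ x, y⟫_ℝ = ⟪x, smulH F.toPre 0 _ χ y⟫_ℝ := by
  have := FiniteDimensional.complete ℝ V
  rw [is_inner ((is_self x).smulH hχ) (is_self y), is_inner (is_self x) ((is_self y).smulH hχ)]
  simp only [real_inner_smul_left, real_inner_smul_right]

theorem incl_smul {χ : M → ℝ} (hχ : F.Cb χ) {k : ℕ} (h : j ≤ k) (x : F.H k (triv M ℝ)) :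
    F.incl k j _ (smulH F.toPre k _ χ x) = smulH F.toPre j _ χ (F.incl k j _ x) :=
  Rep_incl (rep_smulH hχ) (rep_smulH hχ) h h x

theorem Thin.comm {χ : M → ℝ} {η : ℝ} (h : Thin F χ η) (hχ : F.Cb χ) (h0 : 0 ≤ η)
    (x y : F.H 1 (triv M ℝ)) :
    ⟪smulH F.toPre 1 _ χ x, y⟫_ℝ - ⟪x, smulH F.toPre 1 _ χ y⟫_ℝ ≤ 2 * η * (‖x‖ * ‖y‖) := by
  have e : ∀ x y : F.H 1 (triv M ℝ), |∑ a, ⟪smulH F.toPre 0 _ (F.D a χ) (F.incl 1 0 _ x),
      DH F.toPre 0 _ a y⟫_ℝ| ≤ η * (‖x‖ * ‖y‖) := fun x y => by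
    refine (abs_sum_le_sum_abs _ _).trans ((sum_le_sum fun a _ => abs_real_inner_le_norm _ _).trans
      ((Real.sum_mul_le_sqrt_mul_sqrt _ _ _).trans ?_))
    rw [← mul_assoc]
    refine mul_le_mul (Real.sqrt_le_iff.2 ⟨by positivity, mul_pow η _ 2 ▸ h.H hχ x⟩)
      (Real.sqrt_le_iff.2 ⟨norm_nonneg _, ?_⟩) (Real.sqrt_nonneg _) (by positivity)
    rw [norm_succ_sq y]
    exact le_add_of_nonneg_left (sq_nonneg _)
  have h1 := (abs_le.1 (e x y)).2
  have h2 := (abs_le.1 (e y x)).1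
  have i : ∀ x y : F.H 1 (triv M ℝ), ⟪x, y⟫_ℝ = ⟪F.incl 1 0 _ x, F.incl 1 0 _ y⟫_ℝ +
    ∑ a, ⟪DH F.toPre 0 _ a x, DH F.toPre 0 _ a y⟫_ℝ := inner_succ (k := 0)
  rw [i, i x]
  simp only [incl_smul hχ zero_le_one, DH_smul hχ, inner_add_left, inner_add_right,
    smul_symm hχ, sum_add_distrib, real_inner_comm (smulH F.toPre 0 _ (F.D _ χ) (F.incl 1 0 _ y))]
  linarith

section res
variable {C : ℕ → ℝ} (hF : F.Tame C)
include hF

theorem rh0 : RH F fun _ _ => (0 : ℝ →L[ℝ] ℝ) :=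
  Wrd81.rh_of_tame hF (fun _ => Cb_const _) (fun _ _ v w => by simp) fun _ _ => by simp

theorem inner_QH (z : F.H 2 (triv M ℝ)) (y : F.H 1 (triv M ℝ)) :
    ⟪QH F (fun _ _ => 0) 0 z, F.incl 1 0 _ y⟫_ℝ = ⟪F.incl 2 1 _ z, y⟫_ℝ := by
  induction z, y using H_ind₂ with
  | hP => exact isClosed_eq (by fun_prop) (by fun_prop)
  | h u v =>
    have h := Wz78.integral_lap (F := F) (A := fun _ _ => (0 : ℝ →L[ℝ] ℝ))
      (fun _ => contMDiff_const) (fun _ _ v w => by simp) u.2.1 v.2.1 v.2.2.1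
    rw [RepT_toH ((rh0 hF).ell.spec 0).1, incl_toH zero_le_one, incl_toH one_le_two, Pre.inner_toH,
      Pre.inner_toH]
    have i : ∀ {f : M → ℝ}, Sm I f → Integrable (fun x => ⟪f x, v.1 x⟫_ℝ) F.μ := fun hf => by
      simpa only [real_inner_comm] using
        F.integrable_inner v.2.1.continuous v.2.2.1 hf.continuous
    simp only [Pre.ip, Wrd81.lap1_eq, inner_add_left]
    rw [integral_add (i u.2.1) (i (Wz78.sm_lap (fun _ => contMDiff_const) u.2.1)), h,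
      integral_finsetSum]
    · simp only [Wz78.nab, zero_apply, add_zero, Pre.D_def]
    · exact fun a _ => F.integrable_inner (Wz78.sm_nab (fun _ => contMDiff_const) a u.2.1).continuous
        (Wz78.hcs_nab a u.2.2.1) (Wz78.sm_nab (fun _ => contMDiff_const) a v.2.1).continuous

theorem wo_GS : Wo F (GS F) (G0 F) 1 1 2 := by
  have r := rh0 hF
  let R : L2 F ℝ → F.H 1 (triv M ℝ) := fun u => F.incl 2 1 _ (GH F (fun _ _ => 0) 0 u)
  have h1 : ∀ u y, ⟪R u, y⟫_ℝ = ⟪u, F.incl 1 0 _ y⟫_ℝ := fun u y => by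
    rw [← inner_QH hF, r.ell.Q_G]
  have h2 : ∀ u, F.incl 1 0 _ (R u) = GS F u := fun u => incl_incl one_le_two zero_le_one _
  have ab : ∀ {a b : ℝ}, 0 ≤ a → 0 ≤ b → a ^ 2 ≤ b * a → a ≤ b := fun ha hb h => by nlinarith
  have h3 : ∀ u, ‖R u‖ ≤ ‖u‖ := fun u => ab (norm_nonneg _) (norm_nonneg _) (by
    rw [← real_inner_self_eq_norm_sq, h1]
    exact (real_inner_le_norm _ _).trans
      (mul_le_mul_of_nonneg_left (norm_incl_le zero_le_one _) (norm_nonneg _)))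
  have h4 : ∀ j u, Lg F j u → Lg F (j + 2) (GS F u) := fun j u ⟨v, hv⟩ =>
    ⟨GH F _ j v, hv ▸ (r.G0_incl j v).symm⟩
  refine ⟨zero_le_one, fun u => ?_, fun χ η c1 c2 c3 u => ?_, h4, fun x u k1 k2 k3 => ?_⟩
  · rw [← h2, one_mul]; exact (norm_incl_le zero_le_one _).trans (h3 u)
  · set w := smulH F.toPre 1 _ χ (R u) - R (smulH F.toPre 0 _ χ u) with hw
    have e1 : ‖w‖ ^ 2 ≤ 2 * η * ‖u‖ * ‖w‖ := by
      have e := c3.comm c1 c2 (R u) w
      rw [h1 u, incl_smul c1 zero_le_one, ← smul_symm c1, ← h1, ← inner_sub_left, ← hw,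
        real_inner_self_eq_norm_sq] at e
      refine e.trans ?_
      rw [mul_assoc (2 * η)]
      gcongr
      exact h3 u
    rw [← h2, ← h2, ← incl_smul c1 zero_le_one, ← map_sub, ← hw]
    simpa using (norm_incl_le zero_le_one w).trans (ab (norm_nonneg _) (by positivity) e1)
  · obtain ⟨v, v1, -, -, v2⟩ := Ell97.smooth_of_all hF (k := 0) (x := GS F x)
      fun j _ => (h4 j x (k1 j)).mono (by omega)
    have sv := v1.choose_spec.1
    have := lfm F.toPre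
    have e : u = lap1 F (fun _ _ => 0) v := by
      have s2 := Wrd81.sm_lap1 F r.mc.sm sv
      refine (Continuous.ae_eq_iff_eq F.μ k2.continuous s2.continuous).1 (ae_eq_of_ip
        k2.continuous.locallyIntegrable s2.continuous.locallyIntegrable fun φ => ?_)
      have e1 := r.inner_Q (GH F (fun _ _ => 0) 0 x) (F.toH 2 _ φ)
      rw [r.ell.Q_G, RepT_toH (r.ell.spec 0).1, incl_toH (Nat.zero_le 2),
        is_inner k3 (Is.toH φ)] at e1
      have e2 := (is_inner v2 (Is.toH _)).symm.trans e1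
      have e3 := Wrd81.ibp_lap1 F r.mc.sm r.mc.sk φ.2.1 φ.2.2.1 sv
      simp only [Pre.ip, real_inner_comm (φ.1 _) (lap1 F _ v _)]
      rw [← e2, ← e3]
      simp only [real_inner_comm]
    have e' : G0 F u = v := Mp86.res_eq r.bmp r.mc ⟨sv, ⟨_, CB_zero.1 (v1.choose_spec.2 0)⟩,
      fun x => by rw [e, Wrd81.lap1_eq]⟩
    rw [e']
    exact ⟨sv, v2⟩

end res

/-! ### words -/

variable (F) in
/-- `dg ⊗ dh` -/
def dd2 (g h : M → ℝ) (x : M) : V2 ι := WithLp.toLp 2 fun s => F.D s.1 g x * F.D s.2 h x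

theorem norm_dd2 {g h : M → ℝ} (h0 : 0 ≤ N) (hg : G1 F N g) (hh : G1 F N h) (x : M) :
    ‖dd2 F g h x‖ ≤ N := by
  refine abs_le_of_sq_le_sq' ?_ h0 |>.2
  rw [EuclideanSpace.norm_sq_eq, Fintype.sum_prod_type]
  simp only [dd2, Real.norm_eq_abs, sq_abs, mul_pow, ← sum_mul_sum]
  rw [sq N]
  exact mul_le_mul (hg x) (hh x) (sum_nonneg fun _ _ => sq_nonneg _) h0

theorem cb_dd2 {g h : M → ℝ} (hg : F.Cd g) (hh : F.Cd h) : F.Cb (dd2 F g h) := by
  classical
  have : dd2 F g h = fun x => ∑ s : ι × ι,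
      (F.D s.1 g x • F.D s.2 h x) • (WithLp.toLp 2 (Pi.single s 1) : V2 ι) := by
    funext x
    refine fm_ext fun t => ?_
    simp [dd2, Pi.single_apply]
  rw [this]
  exact Cb_sum _ fun s _ => Cb_smul (Cb_smul (hg.2 _) (hh.2 _)) (Cb_const _)

variable (F) in
/-- letters -/
def laH : La M → L2 F ℝ →L[ℝ] L2 F ℝ
  | .mul f => smulH F.toPre 0 _ f
  | .G => GS F

variable (F) in
/-- lists of letters -/
def llH : List (La M) → L2 F ℝ →L[ℝ] L2 F ℝ
  | [] => smulH F.toPre 0 _ fun _ => 1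
  | t :: l => laH F t ∘L llH l

variable {lam : Type} [Fintype lam] {r m : ℕ} (o : ι → ι → ι → ι → M → ℝ)

variable (F) in
/-- the linear part of a term -/
def tmH : Tm M lam r m → HK F 0 →L[ℝ] HK F 0
  | .ad g h ⟨.cv f g' h', l⟩ =>
    F.mulH 0 _ _ (fun x => ContinuousLinearMap.toSpanSingleton ℝ (hs F o x (dd2 F g h x))) ∘L
      llH F l ∘L GS F ∘L GS F ∘L F.mulH 0 _ _ fun x => innerSL ℝ (f x • dd2 F g' h' x)
  | _ => 0

variable (F) in
/-- the same on functions -/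
def tmF : Tm M lam r m → (M → V2 ι) → M → V2 ι
  | .ad g h ⟨.cv f g' h', l⟩ => fun u x => wd (la0 F)
      (G0 F (G0 F fun y => ⟪f y • dd2 F g' h' y, u y⟫_ℝ)) l x • hs F o x (dd2 F g h x)
  | _ => fun _ => 0

variable {o} {K : ℕ}

theorem wo_ll {C : ℕ → ℝ} (hF : F.Tame C) (hK : 1 ≤ K) : ∀ l : List (La M), (∀ t ∈ l, La.OK F t) →
    (∀ t ∈ l, LaSz K t) → Wo F (llH F l) (fun u => wd (la0 F) u l) (K ^ l.length) l.length 0
  | [], _, _ => (wo_smul (Cb_const _) (by simp) (by simp)).congr fun u _ => by simp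
  | t :: l, h1, h2 => by
    have ih := wo_ll hF hK l (fun t ht => h1 t (by simp [ht])) fun t ht => h2 t (by simp [ht])
    have k1 : (1 : ℝ) ≤ K := by exact_mod_cast hK
    have : Wo F (laH F t) (la0 F t) K 1 0 := by
      cases t with
      | mul f => exact (wo_smul (h1 (.mul f) (by simp)) (by positivity)
          (h2 (.mul f) (by simp))).mono le_rfl zero_le_one le_rfl
      | G => exact (wo_GS hF).mono k1 le_rfl (by omega)
    exact (this.comp ih).mono (by rw [List.length_cons, pow_succ']) (by simp; omega) le_rfl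

theorem Tam.wo_tm {G : Geo I M ι lam} (h : Tam G.F o) (hK : 1 ≤ K) {T : Tm M lam r m}
    (h1 : T.OK G.F) (h2 : Mp86.TmSz G K T) :
    Wo G.F (tmH G.F o T) (tmF G.F o T) (K ^ (K + 3)) (K + 2) 1 := by
  have k1 : (1 : ℝ) ≤ K := by exact_mod_cast hK
  have z : Wo G.F (0 : HK G.F 0 →L[ℝ] HK G.F 0) (fun _ => 0) (K ^ (K + 3)) (K + 2) 1 :=
    wo_zero.mono (by positivity) le_rfl le_rfl
  obtain ⟨C, hF⟩ := h.tm
  rcases T with _ | _ | ⟨g, g2, ⟨_ | ⟨f, g', h'⟩, l⟩⟩ | _ | _ | _ | _ <;> try exact z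
  obtain ⟨a1, a2, ⟨a3, a4, a5⟩, a6⟩ := h1
  obtain ⟨b1, b2, ⟨b3, b4, b5⟩, b6, b7⟩ := h2
  have b8 : l.length ≤ K := b6
  have c1 := wo_mul (F := G.F) (N := K) (f := fun x => ContinuousLinearMap.toSpanSingleton ℝ
      (hs G.F o x (dd2 G.F g g2 x))) (Cb_clm (ContinuousLinearMap.smulRightL ℝ ℝ (V2 ι) 1)
      (Cb_app h.cb_hs (cb_dd2 a1 a2))) (by positivity) fun x v => by
    rw [ContinuousLinearMap.toSpanSingleton_apply, norm_smul, mul_comm]
    exact mul_le_mul_of_nonneg_right ((norm_hs_le h.ok x _).trans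
      (norm_dd2 (by positivity) b1 b2 x)) (norm_nonneg _)
  have c2 := wo_mul (F := G.F) (N := K * K) (f := fun x => innerSL ℝ (f x • dd2 G.F g' h' x))
      (Cb_clm (innerSL ℝ) (Cb_smul a3 (cb_dd2 a4 a5))) (by positivity) fun x v => by
    rw [innerSL_apply_apply]
    refine (abs_real_inner_le_norm _ _).trans (mul_le_mul_of_nonneg_right ?_ (norm_nonneg _))
    rw [norm_smul]
    exact mul_le_mul (abs_le_of_sq_le_sq' ((b3 x).trans (by nlinarith)) (by positivity) |> abs_le.2)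
      (norm_dd2 (by positivity) b4 b5 x) (norm_nonneg _) (by positivity)
  refine (c1.comp ((wo_ll hF hK l a6 b7).comp ((wo_GS hF).comp ((wo_GS hF).comp c2)))).mono ?_
    (by omega) (by omega)
  calc _ = (K : ℝ) ^ (l.length + 3) := by ring
    _ ≤ _ := pow_le_pow_right₀ k1 (by omega)

theorem Tam.PH_tm (h : Tam F o) {T : Tm M lam r m} (h1 : T.OK F) (u : HK F 0) :
    PH F o 0 (tmH F o T u) = tmH F o T u := by
  rcases T with _ | _ | ⟨g, g2, ⟨_ | ⟨f, g', h'⟩, l⟩⟩ | _ | _ | _ | _ <;> try exact map_zero _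
  have k := (is_self (llH F l (GS F (GS F (F.mulH 0 _ _
    (fun x => innerSL ℝ (f x • dd2 F g' h' x)) u))))).mulH (q := triv M (V2 ι))
    (f := fun x => ContinuousLinearMap.toSpanSingleton ℝ (hs F o x (dd2 F g g2 x)))
    (Cb_clm (ContinuousLinearMap.smulRightL ℝ ℝ (V2 ι) 1) (Cb_app h.cb_hs (cb_dd2 h1.1 h1.2.1)))
    (Maps.triv _)
  exact (h.is_PH k).unique (k.congr (.of_forall fun x => by
    simp only [ContinuousLinearMap.toSpanSingleton_apply, map_smul, hs_idem h.ok]))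

theorem Wo.per {T : HK F 0 →L[ℝ] HK F 0} {Tf : (M → V2 ι) → M → V2 ι} {Ω : Set M}
    (h : Wo F T Tf N n 1) (hΩ : IsClopen Ω) (hp : ∀ u, PH F o 0 (T u) = T u) (hN : √2 * N < 1) :
    Per F o Ω T N where
  mem u hu := ⟨hp u, by
    have := h.cm _ 0 (cb_ind hΩ) le_rfl (thin_ind hΩ) u
    rw [show smulH F.toPre 0 _ (Ω.indicator 1) u = u from hu] at this
    exact sub_eq_zero.1 (norm_le_zero_iff.1 (this.trans_eq (by simp)))⟩
  le u _ := h.le u
  lv := h.lv
  e0 := h.n0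
  e1 := hN

end Crest.Agent.X212.Qab60
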